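import Vale.Agent.P324.Upper

namespace Vale.Agent.Results.P324.HeightOneFormula

open Vale.Agent.P324

/-- Exact min-max formula for unit jobs with a precedence graph of height at most one on `m`
machines (in particular `m = 3`): the optimal makespan equals
`⌊a/m⌋ + 1 + ⌈(n - a - fill)/m⌉`, where `a` is the number of jobs having a successor and `fill` is
the largest number of successor-free jobs that can run together with the last `a mod m` of them. -/
theorem result (n : ℕ) (hn : 1 ≤ n) (m : ℕ) (hm : 1 ≤ m) (E : Fin n → Fin n → Prop)
    (hE : HeightOne E) :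
    IsLeast {T : ℕ | ∃ τ : Fin n → ℕ, IsSchedule m E T τ} (formula m E) :=
  ⟨exists_schedule hn hm hE, fun _ ⟨_, hτ⟩ => formula_le hn hm hE hτ⟩

end Vale.Agent.Results.P324.HeightOneFormula
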